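import Vale.Agent.P047.Beat.Final
import Vale.Agent.P047.Beat.Deg4
import Vale.Agent.P047.Junta
import Vale.Agent.P047.Beat.Comp5
import Vale.Agent.P047.Beat.Part2
import Vale.Agent.P047.Up.Main
import Vale.Agent.P047.Four.Main
import Vale.Agent.P047.Four.Tight

namespace Vale.Agent.Results.P047.A0000000_Combined5

open Finset Vale.Agent.P047

theorem result :
    ((∀ (n : ℕ) (f : (Fin n → Bool) → ℝ), IsBoolean f → degree f ≤ 4 →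
        ∑ i, fourier f {i} ≤ 7 / 4 ∧ ∑ i, fourier f {i} + |fourier f ∅| ≤ 15 / 8 ∧
          (fourier f ∅ = 0 → ∑ i, fourier f {i} ≤ 3 / 2)) ∧
      (∃ f : (Fin 7 → Bool) → ℝ, IsBoolean f ∧ degree f ≤ 4 ∧
        ∑ i, fourier f {i} = 7 / 4 ∧ fourier f ∅ = 1 / 8) ∧
      ∃ f : (Fin 3 → Bool) → ℝ, IsBoolean f ∧ degree f ≤ 4 ∧
        fourier f ∅ = 0 ∧ ∑ i, fourier f {i} = 3 / 2) ∧
    (∀ d : ℕ, 30 ≤ d → ∀ (n : ℕ) (f : (Fin n → Bool) → ℝ),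
      IsBoolean f → degree f ≤ d → ∑ i, fourier f {i} ≤ (97 / 100 : ℝ) * (d : ℝ)) ∧
    (∀ d : ℕ, 4 ≤ d → ∃ (n : ℕ) (f : (Fin n → Bool) → ℝ),
      IsBoolean f ∧ degree f ≤ d ∧
        (∑ x : Fin d → Bool, |∑ i, sgn (x i)|) / 2 ^ d < ∑ i, fourier f {i}) ∧
    (Real.sqrt (2 / Real.pi) < 83 / 100 ∧
      ∃ d₀ : ℕ, ∀ d : ℕ, d₀ ≤ d → ∃ (n : ℕ) (f : (Fin n → Bool) → ℝ),
        IsBoolean f ∧ degree f ≤ d ∧ (83 / 100 : ℝ) * Real.sqrt d ≤ ∑ i, fourier f {i}) ∧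
    (∀ (n d : ℕ) (f : (Fin n → Bool) → ℝ), IsBoolean f →
      ∀ σ : ℝ, (σ = 1 ∨ σ = -1) →
      ∀ (T : Finset (Finset (Fin n) × Finset (Fin n)))
        (c : Finset (Fin n) × Finset (Fin n) → ℝ),
        (∀ C ∈ T, 0 ≤ c C) → (∀ C ∈ T, Disjoint C.1 C.2) →
        (∀ C ∈ T, C.1.card + C.2.card ≤ d) →
        (∀ x, (1 + σ * f x) / 2 = ∑ C ∈ T, c C * subcube C.1 C.2 x) →
        degree f ≤ d ∧ ∑ i, |fourier f {i}| ≤ 2 * Real.sqrt (((d : ℝ) + 1) / Real.exp 1)) ∧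
    (∀ (n : ℕ) (f : (Fin n → Bool) → ℝ)
        (T : Finset (Finset (Fin n) × Finset (Fin n)))
        (c e : Finset (Fin n) × Finset (Fin n) → ℝ),
        (∀ C ∈ T, 0 ≤ c C) → (∀ C ∈ T, Disjoint C.1 C.2) → (∀ C ∈ T, |e C| ≤ 1) →
        (∀ x, ∑ C ∈ T, c C * subcube C.1 C.2 x = 1) →
        (∀ x, f x = ∑ C ∈ T, c C * e C * subcube C.1 C.2 x) →
        ∑ i, fourier f {i} ≤
          Real.sqrt (∑ C ∈ T, c C * ((C.1.card : ℝ) + C.2.card) / 2 ^ (C.1.card + C.2.card))) ∧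
    (∀ a C : ℝ, 0 ≤ a →
      (∀ (n : ℕ) (f : (Fin n → Bool) → ℝ), IsBoolean f →
        ∑ i, fourier f {i} ≤ C * (degree f : ℝ) ^ a) →
      ∀ (n : ℕ) (f : (Fin n → Bool) → ℝ), IsBoolean f →
        ∑ i, fourier f {i} + |fourier f ∅| ≤ ((degree f : ℝ) + 1) ^ a ∧
        (fourier f ∅ = 0 → ∑ i, fourier f {i} ≤ (degree f : ℝ) ^ a)) :=
  ⟨⟨fun n f hf hd => ⟨Four.deg4_bound n f hf hd, Four.deg4_profile n f hf hd⟩,
      Four.exists_tight_sum, Four.exists_tight_balanced⟩,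
    fun d hd n f hf hdeg => Up.upper_bound d hd n f hf hdeg,
    beats_all, beats_majority,
    fun _ d f hf σ hσ T c hc hdisj hw hrep => junta_main d f hf σ hσ T c hc hdisj hw hrep,
    fun _ f T c e hc hdisj he hpart hf => partition_bound f T c e hc hdisj he hpart hf,
    fun a C ha hC _ f hf =>
      ⟨exponent_all a ha C hC f hf, fun hm => exponent_balanced a ha C hC f hf hm⟩⟩

end Vale.Agent.Results.P047.A0000000_Combined5
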