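import Vale.Agent.P047.Beat.Deg4
import Vale.Agent.P047.D4.Fin

namespace Vale.Agent.Results.P047.A000000_DegreeFourExact

open Finset Vale.Agent.P047

theorem result :
    (∀ (n : ℕ) (f : (Fin n → Bool) → ℝ),
      IsBoolean f → degree f ≤ 4 → ∑ i, fourier f {i} ≤ 7 / 4) ∧
    (∃ f : (Fin 7 → Bool) → ℝ, IsBoolean f ∧ degree f ≤ 4 ∧ ∑ i, fourier f {i} = 7 / 4) :=
  ⟨fun n f hf hd => D4.deg_four n f hf hd, exists_f4⟩

end Vale.Agent.Results.P047.A000000_DegreeFourExact
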