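import Vale.Agent.P047.Beat.Final
import Vale.Agent.P047.Beat.Deg4
import Vale.Agent.P047.Junta
import Vale.Agent.P047.Beat.Comp5
import Vale.Agent.P047.Beat.Part2

namespace Vale.Agent.Results.P047.A0000_Combined2

open Finset Vale.Agent.P047

theorem result :
    (∀ d : ℕ, 4 ≤ d → ∃ (n : ℕ) (f : (Fin n → Bool) → ℝ),
      IsBoolean f ∧ degree f ≤ d ∧
        (∑ x : Fin d → Bool, |∑ i, sgn (x i)|) / 2 ^ d < ∑ i, fourier f {i}) ∧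
    (Real.sqrt (2 / Real.pi) < 83 / 100 ∧
      ∃ d₀ : ℕ, ∀ d : ℕ, d₀ ≤ d → ∃ (n : ℕ) (f : (Fin n → Bool) → ℝ),
        IsBoolean f ∧ degree f ≤ d ∧ (83 / 100 : ℝ) * Real.sqrt d ≤ ∑ i, fourier f {i}) ∧
    (∀ (n d : ℕ) (f : (Fin n → Bool) → ℝ), IsBoolean f →
      ∀ σ : ℝ, (σ = 1 ∨ σ = -1) →
      ∀ (T : Finset (Finset (Fin n) × Finset (Fin n)))
        (c : Finset (Fin n) × Finset (Fin n) → ℝ),
        (∀ C ∈ T, 0 ≤ c C) → (∀ C ∈ T, Disjoint C.1 C.2) →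
        (∀ C ∈ T, C.1.card + C.2.card ≤ d) →
        (∀ x, (1 + σ * f x) / 2 = ∑ C ∈ T, c C * subcube C.1 C.2 x) →
        degree f ≤ d ∧ ∑ i, |fourier f {i}| ≤ 2 * Real.sqrt (((d : ℝ) + 1) / Real.exp 1)) ∧
    (∀ (n : ℕ) (f : (Fin n → Bool) → ℝ)
        (T : Finset (Finset (Fin n) × Finset (Fin n)))
        (c e : Finset (Fin n) × Finset (Fin n) → ℝ),
        (∀ C ∈ T, 0 ≤ c C) → (∀ C ∈ T, Disjoint C.1 C.2) → (∀ C ∈ T, |e C| ≤ 1) →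
        (∀ x, ∑ C ∈ T, c C * subcube C.1 C.2 x = 1) →
        (∀ x, f x = ∑ C ∈ T, c C * e C * subcube C.1 C.2 x) →
        ∑ i, fourier f {i} ≤
          Real.sqrt (∑ C ∈ T, c C * ((C.1.card : ℝ) + C.2.card) / 2 ^ (C.1.card + C.2.card))) ∧
    (∀ (n : ℕ) (f : (Fin n → Bool) → ℝ), IsBoolean f → fourier f ∅ = 0 → ∀ k : ℕ,
      ∃ (N : ℕ) (F : (Fin N → Bool) → ℝ), IsBoolean F ∧ degree F ≤ degree f ^ k ∧
        fourier F ∅ = 0 ∧ ∑ i, fourier F {i} = (∑ i, fourier f {i}) ^ k) ∧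
    (∀ a C : ℝ, 0 ≤ a →
      (∀ (n : ℕ) (f : (Fin n → Bool) → ℝ), IsBoolean f →
        ∑ i, fourier f {i} ≤ C * (degree f : ℝ) ^ a) →
      ∀ (n : ℕ) (f : (Fin n → Bool) → ℝ), IsBoolean f →
        ∑ i, fourier f {i} + |fourier f ∅| ≤ ((degree f : ℝ) + 1) ^ a ∧
        (fourier f ∅ = 0 → ∑ i, fourier f {i} ≤ (degree f : ℝ) ^ a)) :=
  ⟨beats_all, beats_majority,
    fun _ d f hf σ hσ T c hc hdisj hw hrep => junta_main d f hf σ hσ T c hc hdisj hw hrep,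
    fun _ f T c e hc hdisj he hpart hf => partition_bound f T c e hc hdisj he hpart hf,
    fun _ f hf hm k => power f hf hm k,
    fun a C ha hC _ f hf =>
      ⟨exponent_all a ha C hC f hf, fun hm => exponent_balanced a ha C hC f hf hm⟩⟩

end Vale.Agent.Results.P047.A0000_Combined2
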