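import Vale.Agent.P047.Up.Main

namespace Vale.Agent.Results.P047.A0000_Upper

open Finset Vale.Agent.P047

theorem result :
    ∀ d : ℕ, 30 ≤ d → ∀ (n : ℕ) (f : (Fin n → Bool) → ℝ),
      IsBoolean f → degree f ≤ d → ∑ i, fourier f {i} ≤ (97 / 100 : ℝ) * (d : ℝ) :=
  fun d hd n f hf hdeg => Up.upper_bound d hd n f hf hdeg

end Vale.Agent.Results.P047.A0000_Upper
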