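import Vale.Agent.P047.Beat.Final
import Vale.Agent.P047.Beat.Deg4
import Vale.Agent.P047.Junta

namespace Vale.Agent.Results.P047.A000_Combined

open Finset Vale.Agent.P047

theorem result :
    (∀ d : ℕ, 4 ≤ d → ∃ (n : ℕ) (f : (Fin n → Bool) → ℝ),
      IsBoolean f ∧ degree f ≤ d ∧
        (∑ x : Fin d → Bool, |∑ i, sgn (x i)|) / 2 ^ d < ∑ i, fourier f {i}) ∧
    (Real.sqrt (2 / Real.pi) < 83 / 100 ∧
      ∃ d₀ : ℕ, ∀ d : ℕ, d₀ ≤ d → ∃ (n : ℕ) (f : (Fin n → Bool) → ℝ),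
        IsBoolean f ∧ degree f ≤ d ∧ (83 / 100 : ℝ) * Real.sqrt d ≤ ∑ i, fourier f {i}) ∧
    (∀ (n d : ℕ) (f : (Fin n → Bool) → ℝ), IsBoolean f →
      ∀ σ : ℝ, (σ = 1 ∨ σ = -1) →
      ∀ (T : Finset (Finset (Fin n) × Finset (Fin n)))
        (c : Finset (Fin n) × Finset (Fin n) → ℝ),
        (∀ C ∈ T, 0 ≤ c C) → (∀ C ∈ T, Disjoint C.1 C.2) →
        (∀ C ∈ T, C.1.card + C.2.card ≤ d) →
        (∀ x, (1 + σ * f x) / 2 = ∑ C ∈ T, c C * subcube C.1 C.2 x) →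
        degree f ≤ d ∧ ∑ i, |fourier f {i}| ≤ 2 * Real.sqrt (((d : ℝ) + 1) / Real.exp 1)) :=
  ⟨beats_all, beats_majority,
    fun _ d f hf σ hσ T c hc hdisj hw hrep => junta_main d f hf σ hσ T c hc hdisj hw hrep⟩

end Vale.Agent.Results.P047.A000_Combined
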