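import Vale.Agent.P047.Beat.Final
import Vale.Agent.P047.Beat.Deg4

namespace Vale.Agent.Results.P047.A00_BeatsEveryDegree

open Finset Vale.Agent.P047

theorem result :
    (∀ d : ℕ, 4 ≤ d → ∃ (n : ℕ) (f : (Fin n → Bool) → ℝ),
      IsBoolean f ∧ degree f ≤ d ∧
        (∑ x : Fin d → Bool, |∑ i, sgn (x i)|) / 2 ^ d < ∑ i, fourier f {i}) ∧
    Real.sqrt (2 / Real.pi) < 83 / 100 ∧
    ∃ d₀ : ℕ, ∀ d : ℕ, d₀ ≤ d → ∃ (n : ℕ) (f : (Fin n → Bool) → ℝ),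
      IsBoolean f ∧ degree f ≤ d ∧ (83 / 100 : ℝ) * Real.sqrt d ≤ ∑ i, fourier f {i} :=
  ⟨beats_all, beats_majority⟩

end Vale.Agent.Results.P047.A00_BeatsEveryDegree
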