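import Vale.Agent.P047.Beat.Final

namespace Vale.Agent.Results.P047.A0_BeatsMajority

open Finset Vale.Agent.P047

theorem result : Real.sqrt (2 / Real.pi) < 83 / 100 ∧
    ∃ d₀ : ℕ, ∀ d : ℕ, d₀ ≤ d → ∃ (n : ℕ) (f : (Fin n → Bool) → ℝ),
      IsBoolean f ∧ degree f ≤ d ∧ (83 / 100 : ℝ) * Real.sqrt d ≤ ∑ i, fourier f {i} :=
  beats_majority

end Vale.Agent.Results.P047.A0_BeatsMajority
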