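import Vale.Agent.P047.Junta

namespace Vale.Agent.Results.P047.OneSidedSubcubes

open Finset Vale.Agent.P047

theorem result (n d : ℕ) (f : (Fin n → Bool) → ℝ) (hf : IsBoolean f)
    (σ : ℝ) (hσ : σ = 1 ∨ σ = -1)
    (T : Finset (Finset (Fin n) × Finset (Fin n))) (c : Finset (Fin n) × Finset (Fin n) → ℝ)
    (hc : ∀ C ∈ T, 0 ≤ c C)
    (hdisj : ∀ C ∈ T, Disjoint C.1 C.2)
    (hw : ∀ C ∈ T, C.1.card + C.2.card ≤ d)
    (hrep : ∀ x, (1 + σ * f x) / 2 = ∑ C ∈ T, c C * subcube C.1 C.2 x) :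
    degree f ≤ d ∧ ∑ i, |fourier f {i}| ≤ 2 * Real.sqrt (((d : ℝ) + 1) / Real.exp 1) :=
  junta_main d f hf σ hσ T c hc hdisj hw hrep

end Vale.Agent.Results.P047.OneSidedSubcubes
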